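import Mathlib.Data.Fintype.Card
import Mathlib.Data.Finset.Card
import Mathlib.Tactic

/-!
Finite core of the Borsuk d = 9 argument (route of helper38): no family of faces on ten
colours has all of the properties below.
-/

namespace Vale.Agent.P052.R2.H923

open Classical

/-- the hypotheses of the finite core -/
structure Faces (F : Finset (Fin 10) → Prop) : Prop where
  mono : ∀ S T : Finset (Fin 10), T ⊆ S → F S → F T
  ex : ∃ A : Finset (Fin 10), A.card = 4 ∧ F A
  comp : ∀ A T : Finset (Fin 10), A.card = 4 → F A → T.card = 3 → Disjoint A T →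
    (F T ↔ ¬ F (Aᶜ \ T))
  nf : ∀ A I : Finset (Fin 10), A.card = 4 → I.card = 4 → Disjoint A I → F A → ¬ F I
  four : ∀ (I : Finset (Fin 10)) (o : Fin 10), I.card = 4 → ¬ F I → o ∈ I →
    ∃ T : Finset (Fin 10), T ⊆ I ∧ T.card = 3 ∧ o ∈ T ∧ ¬ F T
  five : ∀ I : Finset (Fin 10), I.card = 5 →
    ∃ T : Finset (Fin 10), T ⊆ I ∧ T.card = 3 ∧ ¬ F T
  wv : ∀ (t : Finset (Fin 10)) (o : Fin 10), t.card = 3 → o ∉ t → F (insert o t) →
    ∃ o' : Fin 10, o' ∉ t ∧ o' ≠ o ∧ F (insert o' t)

/-- indicator of a nonface triple -/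
noncomputable def tau (F : Finset (Fin 10) → Prop) (x y z : Fin 10) : ℤ :=
  if F {x, y, z} then 0 else 1

variable {F : Finset (Fin 10) → Prop}

theorem tau_cases (x y z : Fin 10) :
    (tau F x y z = 0 ∧ F {x, y, z}) ∨ (tau F x y z = 1 ∧ ¬ F {x, y, z}) := by
  unfold tau
  split_ifs with h
  · exact Or.inl ⟨rfl, h⟩
  · exact Or.inr ⟨rfl, h⟩

theorem tau_swap (x y z : Fin 10) : tau F x y z = tau F y x z := by
  unfold tau
  rw [Finset.insert_comm x y]

theorem tau_rot (x y z : Fin 10) : tau F x y z = tau F x z y := by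
  unfold tau
  rw [Finset.pair_comm y z]

theorem card3 {x y z : Fin 10} (h : [x, y, z].Nodup) : ({x, y, z} : Finset (Fin 10)).card = 3 := by
  have := List.toFinset_card_of_nodup h
  simpa using this

theorem card4 {x y z w : Fin 10} (h : [x, y, z, w].Nodup) :
    ({x, y, z, w} : Finset (Fin 10)).card = 4 := by
  have := List.toFinset_card_of_nodup h
  simpa using this

theorem card6 {x y z w u v : Fin 10} (h : [x, y, z, w, u, v].Nodup) :
    ({x, y, z, w, u, v} : Finset (Fin 10)).card = 6 := by
  have := List.toFinset_card_of_nodup h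
  simpa using this

/-- a triple inside a four element set -/
theorem three_of_four {x y z w : Fin 10} {T : Finset (Fin 10)}
    (hT : T ⊆ {x, y, z, w}) (hc : T.card = 3) (hx : x ∈ T) (hn : [x, y, z, w].Nodup) :
    T = {x, y, z} ∨ T = {x, y, w} ∨ T = {x, z, w} := by
  have hne : T ≠ {x, y, z, w} := by
    intro h
    rw [h, card4 hn] at hc
    omega
  obtain ⟨p, hp, hpT⟩ := Finset.exists_of_ssubset (lt_of_le_of_ne hT hne)
  simp only [List.nodup_cons, List.mem_cons, List.not_mem_nil, or_false, not_or, List.nodup_nil,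
    not_false_eq_true, and_true] at hn
  obtain ⟨⟨h1, h2, h3⟩, ⟨h4, h5⟩, h6⟩ := hn
  simp only [Finset.mem_insert, Finset.mem_singleton] at hp
  have key : ∀ a b : Fin 10, a ≠ b → a ≠ x → b ≠ x → (∀ q ∈ T, q = x ∨ q = a ∨ q = b) →
      T = {x, a, b} := by
    intro a b hab hax hbx hq
    apply Finset.eq_of_subset_of_card_le
    · intro q hqT
      simpa using hq q hqT
    · rw [hc, card3]
      simp [hab, Ne.symm hax, Ne.symm hbx]
  rcases hp with rfl | rfl | rfl | rfl
  · exact absurd hx hpT
  · right; right
    refine key z w h6 (Ne.symm h2) (Ne.symm h3) ?_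
    intro q hq
    have := hT hq
    simp only [Finset.mem_insert, Finset.mem_singleton] at this
    rcases this with h | h | h | h
    · exact Or.inl h
    · exact absurd (h ▸ hq) hpT
    · exact Or.inr (Or.inl h)
    · exact Or.inr (Or.inr h)
  · right; left
    refine key y w h5 (Ne.symm h1) (Ne.symm h3) ?_
    intro q hq
    have := hT hq
    simp only [Finset.mem_insert, Finset.mem_singleton] at this
    rcases this with h | h | h | h
    · exact Or.inl h
    · exact Or.inr (Or.inl h)
    · exact absurd (h ▸ hq) hpT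
    · exact Or.inr (Or.inr h)
  · left
    refine key y z h4 (Ne.symm h1) (Ne.symm h2) ?_
    intro q hq
    have := hT hq
    simp only [Finset.mem_insert, Finset.mem_singleton] at this
    rcases this with h | h | h | h
    · exact Or.inl h
    · exact Or.inr (Or.inl h)
    · exact Or.inr (Or.inr h)
    · exact absurd (h ▸ hq) hpT

theorem one_le (hF : Faces F) {x y z w : Fin 10} (hn : [x, y, z, w].Nodup)
    (hI : ¬ F {x, y, z, w}) : 1 ≤ tau F x y z + tau F x y w + tau F x z w := by
  obtain ⟨T, hT, hc, hx, hf⟩ := hF.four {x, y, z, w} x (card4 hn) hI (by simp)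
  have a1 := tau_cases (F := F) x y z
  have a2 := tau_cases (F := F) x y w
  have a3 := tau_cases (F := F) x z w
  rcases three_of_four hT hc hx hn with h | h | h <;> rw [h] at hf
  · rcases a1 with a1 | a1
    · exact absurd a1.2 hf
    · omega
  · rcases a2 with a2 | a2
    · exact absurd a2.2 hf
    · omega
  · rcases a3 with a3 | a3
    · exact absurd a3.2 hf
    · omega

/-- a nonface four element set has at least two nonface triples -/
theorem two_le (hF : Faces F) {x y z w : Fin 10} (hn : [x, y, z, w].Nodup)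
    (hI : ¬ F {x, y, z, w}) :
    2 ≤ tau F x y z + tau F x y w + tau F x z w + tau F y z w := by
  have e1 : ({y, x, z, w} : Finset (Fin 10)) = {x, y, z, w} := by
    rw [Finset.insert_comm]
  have e2 : ({z, x, y, w} : Finset (Fin 10)) = {x, y, z, w} := by
    ext q; simp only [Finset.mem_insert, Finset.mem_singleton]; tauto
  have e3 : ({w, x, y, z} : Finset (Fin 10)) = {x, y, z, w} := by
    ext q; simp only [Finset.mem_insert, Finset.mem_singleton]; tauto
  have n1 : [y, x, z, w].Nodup := by
    have : [x, y, z, w].Perm [y, x, z, w] := List.Perm.swap _ _ _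
    exact this.nodup_iff.1 hn
  have n2 : [z, x, y, w].Nodup := by
    have : [x, y, z, w].Perm [z, x, y, w] :=
      ((List.Perm.swap z y [w]).cons x).trans (List.Perm.swap z x [y, w])
    exact this.nodup_iff.1 hn
  have n3 : [w, x, y, z].Nodup := by
    have : [x, y, z, w].Perm [w, x, y, z] := by
      have := (List.perm_append_comm (l₁ := [x, y, z]) (l₂ := [w]))
      simpa using this
    exact this.nodup_iff.1 hn
  have b0 := one_le hF hn hI
  have b1 := one_le hF n1 (by rw [e1]; exact hI)
  have b2 := one_le hF n2 (by rw [e2]; exact hI)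
  have b3 := one_le hF n3 (by rw [e3]; exact hI)
  have a1 := tau_cases (F := F) x y z
  have a2 := tau_cases (F := F) x y w
  have a3 := tau_cases (F := F) x z w
  have a4 := tau_cases (F := F) y z w
  rw [tau_swap y x z, tau_swap y x w] at b1
  rw [tau_swap z x y, tau_rot x z y, tau_swap z x w, tau_swap z y w] at b2
  rw [tau_swap w x y, tau_rot x w y, tau_swap w x z, tau_rot x w z, tau_swap w y z,
    tau_rot y w z] at b3
  omega


theorem compl3 (hF : Faces F) {A : Finset (Fin 10)} (hA4 : A.card = 4) (hA : F A)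
    {x y z w u v : Fin 10} (hn : [x, y, z, w, u, v].Nodup)
    (hx : ∀ p ∈ [x, y, z, w, u, v], p ∉ A) : tau F x y z + tau F w u v = 1 := by
  have hc : Aᶜ = {x, y, z, w, u, v} := by
    symm
    apply Finset.eq_of_subset_of_card_le
    · intro p hp
      rw [Finset.mem_compl]
      exact hx p (by simpa using hp)
    · rw [Finset.card_compl, hA4, card6 hn]
      simp
  have hd : Aᶜ \ {x, y, z} = {w, u, v} := by
    rw [hc]
    have := hn
    simp only [List.nodup_cons, List.mem_cons, List.not_mem_nil, or_false, not_or,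
      List.nodup_nil, not_false_eq_true, and_true] at this
    obtain ⟨⟨h1, h2, h3, h4, h5⟩, ⟨h6, h7, h8, h9⟩, ⟨h10, h11, h12⟩, _⟩ := this
    ext q
    simp only [Finset.mem_sdiff, Finset.mem_insert, Finset.mem_singleton]
    constructor
    · tauto
    · rintro (rfl | rfl | rfl)
      · exact ⟨by tauto, by tauto⟩
      · exact ⟨by tauto, by tauto⟩
      · exact ⟨by tauto, by tauto⟩
  have h3 : [x, y, z].Nodup := hn.sublist (by simp)
  have hdis : Disjoint A {x, y, z} := by
    rw [Finset.disjoint_right]
    intro p hp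
    refine hx p ?_
    simp only [Finset.mem_insert, Finset.mem_singleton] at hp
    rcases hp with rfl | rfl | rfl <;> simp
  have h := hF.comp A {x, y, z} hA4 hA (card3 h3) hdis
  rw [hd] at h
  unfold tau
  split_ifs with h1 h2 h2
  · exact absurd h2 (h.1 h1)
  · rfl
  · rfl
  · exact absurd (h.2 h2) h1

theorem P2e (hF : Faces F) {A : Finset (Fin 10)} (hA4 : A.card = 4) (hA : F A)
    (e : Fin 6 → Fin 10) (he : Function.Injective e) (hx : ∀ i, e i ∉ A) :
    tau F (e 0) (e 1) (e 2) + tau F (e 0) (e 1) (e 3) + tau F (e 0) (e 2) (e 3)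
      + tau F (e 1) (e 2) (e 3) = 2 := by
  have c : ∀ i j k l m n : Fin 6, [i, j, k, l, m, n].Nodup →
      tau F (e i) (e j) (e k) + tau F (e l) (e m) (e n) = 1 := by
    intro i j k l m n h
    refine compl3 hF hA4 hA (by simpa using h.map he) ?_
    intro p hp
    simp only [List.mem_cons, List.not_mem_nil, or_false] at hp
    rcases hp with rfl | rfl | rfl | rfl | rfl | rfl <;> exact hx _
  have t : ∀ i j k l : Fin 6, [i, j, k, l].Nodup →
      2 ≤ tau F (e i) (e j) (e k) + tau F (e i) (e j) (e l) + tau F (e i) (e k) (e l)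
        + tau F (e j) (e k) (e l) := by
    intro i j k l h
    have hn : [e i, e j, e k, e l].Nodup := by simpa using h.map he
    refine two_le hF hn ?_
    refine hF.nf A _ hA4 (card4 hn) ?_ hA
    rw [Finset.disjoint_right]
    intro p hp
    simp only [Finset.mem_insert, Finset.mem_singleton] at hp
    rcases hp with rfl | rfl | rfl | rfl <;> exact hx _
  have c012 := c 0 1 2 3 4 5 (by decide)
  have c013 := c 0 1 3 2 4 5 (by decide)
  have c014 := c 0 1 4 2 3 5 (by decide)
  have c015 := c 0 1 5 2 3 4 (by decide)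
  have c023 := c 0 2 3 1 4 5 (by decide)
  have c024 := c 0 2 4 1 3 5 (by decide)
  have c025 := c 0 2 5 1 3 4 (by decide)
  have c034 := c 0 3 4 1 2 5 (by decide)
  have c035 := c 0 3 5 1 2 4 (by decide)
  have c045 := c 0 4 5 1 2 3 (by decide)
  have t0123 := t 0 1 2 3 (by decide)
  have t0124 := t 0 1 2 4 (by decide)
  have t0125 := t 0 1 2 5 (by decide)
  have t0134 := t 0 1 3 4 (by decide)
  have t0135 := t 0 1 3 5 (by decide)
  have t0145 := t 0 1 4 5 (by decide)
  have t0234 := t 0 2 3 4 (by decide)
  have t0235 := t 0 2 3 5 (by decide)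
  have t0245 := t 0 2 4 5 (by decide)
  have t0345 := t 0 3 4 5 (by decide)
  have t1234 := t 1 2 3 4 (by decide)
  have t1235 := t 1 2 3 5 (by decide)
  have t1245 := t 1 2 4 5 (by decide)
  have t1345 := t 1 3 4 5 (by decide)
  have t2345 := t 2 3 4 5 (by decide)
  linarith

theorem P2 (hF : Faces F) {A : Finset (Fin 10)} (hA4 : A.card = 4) (hA : F A)
    {x y z w : Fin 10} (hn : [x, y, z, w].Nodup) (hx : ∀ p ∈ [x, y, z, w], p ∉ A) :
    tau F x y z + tau F x y w + tau F x z w + tau F y z w = 2 := by
  have hs : ({x, y, z, w} : Finset (Fin 10)) ⊆ Aᶜ := by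
    intro p hp
    rw [Finset.mem_compl]
    exact hx p (by simpa using hp)
  have hc : (Aᶜ \ {x, y, z, w}).card = 2 := by
    rw [Finset.card_sdiff_of_subset hs, card4 hn, Finset.card_compl, hA4]
    simp
  obtain ⟨u, v, huv, h2⟩ := Finset.card_eq_two.1 hc
  have hu : u ∈ Aᶜ \ {x, y, z, w} := by rw [h2]; simp
  have hv : v ∈ Aᶜ \ {x, y, z, w} := by rw [h2]; simp
  simp only [Finset.mem_sdiff, Finset.mem_compl, Finset.mem_insert, Finset.mem_singleton,
    not_or] at hu hv
  have hnd : [x, y, z, w, u, v].Nodup := by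
    simp only [List.nodup_cons, List.mem_cons, List.not_mem_nil, or_false, not_or,
      List.nodup_nil, not_false_eq_true, and_true] at hn ⊢
    obtain ⟨⟨h1, h2, h3⟩, ⟨h4, h5⟩, h6⟩ := hn
    obtain ⟨_, k1, k2, k3, k4⟩ := hu
    obtain ⟨_, l1, l2, l3, l4⟩ := hv
    exact ⟨⟨h1, h2, h3, Ne.symm k1, Ne.symm l1⟩, ⟨h4, h5, Ne.symm k2, Ne.symm l2⟩,
      ⟨h6, Ne.symm k3, Ne.symm l3⟩, ⟨Ne.symm k4, Ne.symm l4⟩, huv⟩
  have he : Function.Injective (![x, y, z, w, u, v] : Fin 6 → Fin 10) := by
    rw [← List.nodup_ofFn]
    simpa using hnd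
  have := P2e hF hA4 hA (![x, y, z, w, u, v]) he (by
    intro i
    fin_cases i
    · exact hx x (by simp)
    · exact hx y (by simp)
    · exact hx z (by simp)
    · exact hx w (by simp)
    · exact hu.1
    · exact hv.1)
  simpa using this

/-- twins, along an enumeration of the five common points -/
theorem T1e (hF : Faces F) {A A' : Finset (Fin 10)} (hA4 : A.card = 4) (hA : F A)
    (hA4' : A'.card = 4) (hA' : F A') {a b : Fin 10} (hb : b ∉ A) (ha : a ∉ A')
    (e : Fin 5 → Fin 10) (he : Function.Injective e) (hx : ∀ i, e i ∉ A) (hx' : ∀ i, e i ∉ A')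
    (hea : ∀ i, e i ≠ a) (heb : ∀ i, e i ≠ b) :
    tau F a (e 0) (e 1) = tau F b (e 0) (e 1) := by
  have t : ∀ i j k : Fin 5, [i, j, k].Nodup →
      tau F b (e i) (e j) + tau F b (e i) (e k) + tau F b (e j) (e k) =
      tau F a (e i) (e j) + tau F a (e i) (e k) + tau F a (e j) (e k) := by
    intro i j k h
    have hn : [e i, e j, e k].Nodup := by simpa using h.map he
    have h1 := P2 hF hA4 hA (x := b) (y := e i) (z := e j) (w := e k)
      (by
        rw [List.nodup_cons]
        refine ⟨?_, hn⟩
        simp only [List.mem_cons, List.not_mem_nil, or_false, not_or]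
        exact ⟨(heb i).symm, (heb j).symm, (heb k).symm⟩)
      (by
        intro p hp
        simp only [List.mem_cons, List.not_mem_nil, or_false] at hp
        rcases hp with rfl | rfl | rfl | rfl
        · exact hb
        · exact hx _
        · exact hx _
        · exact hx _)
    have h2 := P2 hF hA4' hA' (x := a) (y := e i) (z := e j) (w := e k)
      (by
        rw [List.nodup_cons]
        refine ⟨?_, hn⟩
        simp only [List.mem_cons, List.not_mem_nil, or_false, not_or]
        exact ⟨(hea i).symm, (hea j).symm, (hea k).symm⟩)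
      (by
        intro p hp
        simp only [List.mem_cons, List.not_mem_nil, or_false] at hp
        rcases hp with rfl | rfl | rfl | rfl
        · exact ha
        · exact hx' _
        · exact hx' _
        · exact hx' _)
    linarith
  have t012 := t 0 1 2 (by decide)
  have t013 := t 0 1 3 (by decide)
  have t014 := t 0 1 4 (by decide)
  have t023 := t 0 2 3 (by decide)
  have t024 := t 0 2 4 (by decide)
  have t034 := t 0 3 4 (by decide)
  have t123 := t 1 2 3 (by decide)
  have t124 := t 1 2 4 (by decide)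
  have t134 := t 1 3 4 (by decide)
  have t234 := t 2 3 4 (by decide)
  linarith

theorem T1 (hF : Faces F) {A : Finset (Fin 10)} (hA4 : A.card = 4) (hA : F A)
    {a b : Fin 10} (ha : a ∈ A) (hb : b ∉ A) (hA' : F (insert b (A.erase a)))
    {x y : Fin 10} (hxy : x ≠ y) (hx : x ∉ A) (hy : y ∉ A) (hxb : x ≠ b) (hyb : y ≠ b) :
    tau F a x y = tau F b x y := by
  have hs : ({b, x, y} : Finset (Fin 10)) ⊆ Aᶜ := by
    intro p hp
    rw [Finset.mem_compl]
    simp only [Finset.mem_insert, Finset.mem_singleton] at hp
    rcases hp with rfl | rfl | rfl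
    · exact hb
    · exact hx
    · exact hy
  have hn3 : [b, x, y].Nodup := by
    simp [hxy, Ne.symm hxb, Ne.symm hyb]
  have hc : (Aᶜ \ {b, x, y}).card = 3 := by
    rw [Finset.card_sdiff_of_subset hs, card3 hn3, Finset.card_compl, hA4]
    simp
  obtain ⟨u, v, w, huv, huw, hvw, h2⟩ := Finset.card_eq_three.1 hc
  have hu : u ∈ Aᶜ \ {b, x, y} := by rw [h2]; simp
  have hv : v ∈ Aᶜ \ {b, x, y} := by rw [h2]; simp
  have hw : w ∈ Aᶜ \ {b, x, y} := by rw [h2]; simp
  simp only [Finset.mem_sdiff, Finset.mem_compl, Finset.mem_insert, Finset.mem_singleton,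
    not_or] at hu hv hw
  have hnd : [x, y, u, v, w].Nodup := by
    simp only [List.nodup_cons, List.mem_cons, List.not_mem_nil, or_false, not_or,
      List.nodup_nil, not_false_eq_true, and_true]
    exact ⟨⟨hxy, Ne.symm hu.2.2.1, Ne.symm hv.2.2.1, Ne.symm hw.2.2.1⟩,
      ⟨Ne.symm hu.2.2.2, Ne.symm hv.2.2.2, Ne.symm hw.2.2.2⟩, ⟨huv, huw⟩, hvw⟩
  have he : Function.Injective (![x, y, u, v, w] : Fin 5 → Fin 10) := by
    rw [← List.nodup_ofFn]
    simpa using hnd
  have hoff : ∀ i, (![x, y, u, v, w] : Fin 5 → Fin 10) i ∉ A := by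
    intro i
    fin_cases i
    · exact hx
    · exact hy
    · exact hu.1
    · exact hv.1
    · exact hw.1
  have hneb : ∀ i, (![x, y, u, v, w] : Fin 5 → Fin 10) i ≠ b := by
    intro i
    fin_cases i
    · exact hxb
    · exact hyb
    · exact hu.2.1
    · exact hv.2.1
    · exact hw.2.1
  have hcard : (insert b (A.erase a)).card = 4 := by
    rw [Finset.card_insert_of_notMem, Finset.card_erase_of_mem ha, hA4]
    intro h
    exact hb (Finset.mem_of_mem_erase h)
  have haA' : a ∉ insert b (A.erase a) := by
    rw [Finset.mem_insert, not_or]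
    refine ⟨?_, Finset.notMem_erase _ _⟩
    rintro rfl
    exact hb ha
  have := T1e hF hA4 hA hcard hA' hb haA' (![x, y, u, v, w]) he hoff
    (by
      intro i h
      rw [Finset.mem_insert] at h
      rcases h with h | h
      · exact hneb i h
      · exact hoff i (Finset.mem_of_mem_erase h))
    (by
      intro i h
      exact hoff i (h ▸ ha))
    hneb
  simpa using this

/-- zero of tau from a subset of a face -/
theorem tau_zero (hF : Faces F) {S : Finset (Fin 10)} (hS : F S) {x y z : Fin 10}
    (hx : x ∈ S) (hy : y ∈ S) (hz : z ∈ S) : tau F x y z = 0 := by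
  have : F {x, y, z} := by
    refine hF.mono S _ ?_ hS
    intro p hp
    simp only [Finset.mem_insert, Finset.mem_singleton] at hp
    rcases hp with rfl | rfl | rfl <;> assumption
  unfold tau
  rw [if_pos this]

theorem face_of_tau {x y z : Fin 10} (h : tau F x y z = 0) : F {x, y, z} := by
  rcases tau_cases (F := F) x y z with h' | h'
  · exact h'.2
  · omega

/-- the finite core -/
theorem core (hF : Faces F) : False := by
  obtain ⟨A, hA4, hA⟩ := hF.ex
  set a : Fin 4 → Fin 10 := fun i => ((A.equivFinOfCardEq hA4).symm i : Fin 10) with ha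
  have haA : ∀ i, a i ∈ A := fun i => ((A.equivFinOfCardEq hA4).symm i).2
  have hinj : Function.Injective a := by
    intro i j h
    exact (A.equivFinOfCardEq hA4).symm.injective (Subtype.ext h)
  have hsurj : ∀ p ∈ A, ∃ i, a i = p := by
    intro p hp
    refine ⟨A.equivFinOfCardEq hA4 ⟨p, hp⟩, ?_⟩
    simp [ha]
  have hex : ∀ i, ∃ b, b ∉ A ∧ F (insert b (A.erase (a i))) := by
    intro i
    obtain ⟨b, hb1, hb2, hb3⟩ := hF.wv (A.erase (a i)) (a i)
      (by rw [Finset.card_erase_of_mem (haA i), hA4]) (Finset.notMem_erase _ _)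
      (by rw [Finset.insert_erase (haA i)]; exact hA)
    refine ⟨b, ?_, hb3⟩
    intro h
    exact hb1 (Finset.mem_erase.2 ⟨hb2, h⟩)
  choose b hbA hbF using hex
  -- membership in the exchanged facets
  have mem1 : ∀ i j, i ≠ j → a j ∈ insert (b i) (A.erase (a i)) := by
    intro i j hij
    rw [Finset.mem_insert, Finset.mem_erase]
    exact Or.inr ⟨fun h => hij (hinj h).symm, haA j⟩
  have mem2 : ∀ i, b i ∈ insert (b i) (A.erase (a i)) := fun i => Finset.mem_insert_self _ _
  have hab : ∀ i j, a i ≠ b j := by
    intro i j h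
    exact hbA j (h ▸ haA i)
  -- the b i are distinct
  have hbinj : ∀ i j, i ≠ j → b i ≠ b j := by
    intro i j hij hb
    have hk4 : ∀ i j : Fin 4, ∃ k : Fin 4, k ≠ i ∧ k ≠ j := by decide
    obtain ⟨k, hki, hkj⟩ := hk4 i j
    have hfour : F {a i, a j, b i, a k} := by
      by_contra hI
      have hn : [a i, a j, b i, a k].Nodup := by
        simp only [List.nodup_cons, List.mem_cons, List.not_mem_nil, or_false, not_or,
          List.nodup_nil, not_false_eq_true, and_true]
        exact ⟨⟨fun h => hij (hinj h), hab _ _, fun h => hki (hinj h).symm⟩,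
          ⟨hab _ _, fun h => hkj (hinj h).symm⟩, Ne.symm (hab _ _)⟩
      have h2 := two_le hF hn hI
      have e1 : tau F (a i) (a j) (a k) = 0 := tau_zero hF hA (haA _) (haA _) (haA _)
      have e2 : tau F (a i) (b i) (a k) = 0 := by
        refine tau_zero hF (hbF j) (mem1 j i hij.symm) ?_ (mem1 j k hkj.symm)
        rw [hb]
        exact mem2 j
      have e3 : tau F (a j) (b i) (a k) = 0 :=
        tau_zero hF (hbF i) (mem1 i j hij) (mem2 i) (mem1 i k hki.symm)
      rcases tau_cases (F := F) (a i) (a j) (b i) with h | h <;> omega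
    obtain ⟨T, hT, hc, hf⟩ := hF.five (insert (b i) A) (by
      rw [Finset.card_insert_of_notMem (hbA i), hA4])
    apply hf
    by_cases h1 : a i ∈ T
    · by_cases h2 : a j ∈ T
      · by_cases h3 : b i ∈ T
        · have : T = {a i, a j, b i} := by
            symm
            apply Finset.eq_of_subset_of_card_le
            · intro p hp
              simp only [Finset.mem_insert, Finset.mem_singleton] at hp
              rcases hp with rfl | rfl | rfl <;> assumption
            · rw [hc, card3]
              simp only [List.nodup_cons, List.mem_cons, List.not_mem_nil, or_false, not_or,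
                List.nodup_nil, not_false_eq_true, and_true]
              exact ⟨⟨fun h => hij (hinj h), hab _ _⟩, hab _ _⟩
          rw [this]
          refine hF.mono _ _ ?_ hfour
          intro p hp
          simp only [Finset.mem_insert, Finset.mem_singleton] at hp ⊢
          tauto
        · refine hF.mono A T ?_ hA
          intro p hp
          have := hT hp
          rw [Finset.mem_insert] at this
          rcases this with rfl | h
          · exact absurd hp h3
          · exact h
      · refine hF.mono _ T ?_ (hbF j)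
        intro p hp
        have := hT hp
        rw [Finset.mem_insert] at this
        rw [Finset.mem_insert, Finset.mem_erase]
        rcases this with h | h
        · left
          rw [h, hb]
        · right
          refine ⟨?_, h⟩
          rintro rfl
          exact h2 hp
    · refine hF.mono _ T ?_ (hbF i)
      intro p hp
      have := hT hp
      rw [Finset.mem_insert] at this
      rw [Finset.mem_insert, Finset.mem_erase]
      rcases this with h | h
      · left
        exact h
      · right
        refine ⟨?_, h⟩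
        rintro rfl
        exact h1 hp
  have key : ∀ i j k l : Fin 4, [i, j, k, l].Nodup →
      tau F (b i) (b k) (b l) = tau F (b j) (b k) (b l) := by
    intro i j k l h
    simp only [List.nodup_cons, List.mem_cons, List.not_mem_nil, or_false, not_or,
      List.nodup_nil, not_false_eq_true, and_true] at h
    obtain ⟨⟨hij, hik, hil⟩, ⟨hjk, hjl⟩, hkl⟩ := h
    have t1 : tau F (a i) (b k) (b l) = tau F (b i) (b k) (b l) :=
      T1 hF hA4 hA (haA i) (hbA i) (hbF i) (hbinj k l hkl) (hbA k) (hbA l)
        (hbinj k i (Ne.symm hik)) (hbinj l i (Ne.symm hil))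
    have t2 : tau F (a j) (b k) (b l) = tau F (b j) (b k) (b l) :=
      T1 hF hA4 hA (haA j) (hbA j) (hbF j) (hbinj k l hkl) (hbA k) (hbA l)
        (hbinj k j (Ne.symm hjk)) (hbinj l j (Ne.symm hjl))
    have e1 : tau F (a i) (a j) (b k) = 0 :=
      tau_zero hF (hbF k) (mem1 k i (Ne.symm hik)) (mem1 k j (Ne.symm hjk)) (mem2 k)
    have e2 : tau F (a i) (a j) (b l) = 0 :=
      tau_zero hF (hbF l) (mem1 l i (Ne.symm hil)) (mem1 l j (Ne.symm hjl)) (mem2 l)
    have hn : [a i, a j, b k, b l].Nodup := by
      simp only [List.nodup_cons, List.mem_cons, List.not_mem_nil, or_false, not_or,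
        List.nodup_nil, not_false_eq_true, and_true]
      exact ⟨⟨fun h => hij (hinj h), hab _ _, hab _ _⟩, ⟨hab _ _, hab _ _⟩, hbinj k l hkl⟩
    by_cases hI : F {a i, a j, b k, b l}
    · have f1 : tau F (a i) (b k) (b l) = 0 := tau_zero hF hI (by simp) (by simp) (by simp)
      have f2 : tau F (a j) (b k) (b l) = 0 := tau_zero hF hI (by simp) (by simp) (by simp)
      omega
    · have h2 := two_le hF hn hI
      rcases tau_cases (F := F) (a i) (b k) (b l) with h | h <;>
        rcases tau_cases (F := F) (a j) (b k) (b l) with h' | h' <;> omega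
  have hP := P2 hF hA4 hA (x := b 0) (y := b 1) (z := b 2) (w := b 3)
    (by
      simp only [List.nodup_cons, List.mem_cons, List.not_mem_nil, or_false, not_or,
        List.nodup_nil, not_false_eq_true, and_true]
      exact ⟨⟨hbinj _ _ (by decide), hbinj _ _ (by decide), hbinj _ _ (by decide)⟩,
        ⟨hbinj _ _ (by decide), hbinj _ _ (by decide)⟩, hbinj _ _ (by decide)⟩)
    (by
      intro p hp
      simp only [List.mem_cons, List.not_mem_nil, or_false] at hp
      rcases hp with rfl | rfl | rfl | rfl <;> exact hbA _)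
  have k1 := key 0 1 2 3 (by decide)
  have k2 := key 0 2 1 3 (by decide)
  have k3 := key 0 3 1 2 (by decide)
  rw [tau_swap (b 2) (b 1) (b 3)] at k2
  rw [tau_swap (b 3) (b 1) (b 2), tau_rot (b 1) (b 3) (b 2)] at k3
  omega

end Vale.Agent.P052.R2.H923
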