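import Vale.Agent.P052.R2.H97.RankR

/-!
P052, plain Borsuk-Ulam route: the smallest eigenvalue of an operator and Lemma WV
(no triple lies in exactly one facet), from Lemma E.
-/

namespace Vale.Agent.P052.R2.H923

open Module P052.H97


section lam

variable {m : ℕ}

/-- smallest value of the quadratic form on the unit sphere -/
noncomputable def lam (s : EuclideanSpace ℝ (Fin m) →L[ℝ] EuclideanSpace ℝ (Fin m)) : ℝ :=
  sInf ((fun x => (inner ℝ (s x) x : ℝ)) '' Metric.sphere 0 1)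

theorem lam_cont_aux (s : EuclideanSpace ℝ (Fin m) →L[ℝ] EuclideanSpace ℝ (Fin m)) :
    Continuous (fun x => (inner ℝ (s x) x : ℝ)) := by
  fun_prop

theorem sphere_ne (hm : 0 < m) : (Metric.sphere (0 : EuclideanSpace ℝ (Fin m)) 1).Nonempty := by
  refine ⟨EuclideanSpace.single ⟨0, hm⟩ (1 : ℝ), ?_⟩
  rw [mem_sphere_zero_iff_norm, PiLp.norm_single, norm_one]

theorem exists_lam (hm : 0 < m) (s : EuclideanSpace ℝ (Fin m) →L[ℝ] EuclideanSpace ℝ (Fin m)) :
    ∃ x : EuclideanSpace ℝ (Fin m), ‖x‖ = 1 ∧ inner ℝ (s x) x = lam s := by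
  obtain ⟨x, hx, h⟩ := (isCompact_sphere (0 : EuclideanSpace ℝ (Fin m)) 1).exists_sInf_image_eq
    (sphere_ne hm) (lam_cont_aux s).continuousOn
  exact ⟨x, mem_sphere_zero_iff_norm.1 hx, h.symm⟩

theorem lam_le (s : EuclideanSpace ℝ (Fin m) →L[ℝ] EuclideanSpace ℝ (Fin m))
    {x : EuclideanSpace ℝ (Fin m)} (hx : ‖x‖ = 1) : lam s ≤ inner ℝ (s x) x := by
  apply csInf_le
  · exact ((isCompact_sphere (0 : EuclideanSpace ℝ (Fin m)) 1).image
      (lam_cont_aux s)).bddBelow
  · exact ⟨x, mem_sphere_zero_iff_norm.2 hx, rfl⟩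

theorem lam_le_mul (s : EuclideanSpace ℝ (Fin m) →L[ℝ] EuclideanSpace ℝ (Fin m))
    (x : EuclideanSpace ℝ (Fin m)) : lam s * ‖x‖ ^ 2 ≤ inner ℝ (s x) x := by
  rcases eq_or_ne x 0 with rfl | hx
  · simp
  · have hn : ‖x‖ ≠ 0 := norm_ne_zero_iff.2 hx
    have h1 : ‖(‖x‖⁻¹ : ℝ) • x‖ = 1 := by
      rw [norm_smul, norm_inv, norm_norm, inv_mul_cancel₀ hn]
    have h2 := lam_le s h1
    rw [map_smul, inner_smul_left, inner_smul_right] at h2
    simp only [conj_trivial] at h2
    have h3 := mul_le_mul_of_nonneg_right h2 (sq_nonneg ‖x‖)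
    have h4 : ‖x‖⁻¹ * (‖x‖⁻¹ * (inner ℝ (s x) x : ℝ)) * ‖x‖ ^ 2 = inner ℝ (s x) x := by
      field_simp
    linarith

theorem lam_lip (hm : 0 < m) (s t : EuclideanSpace ℝ (Fin m) →L[ℝ] EuclideanSpace ℝ (Fin m)) :
    lam s ≤ lam t + ‖s - t‖ := by
  obtain ⟨x, hx, h⟩ := exists_lam hm t
  have h1 := lam_le s hx
  have h2 : (inner ℝ (s x) x : ℝ) = inner ℝ (t x) x + inner ℝ ((s - t) x) x := by
    rw [← inner_add_left]
    congr 1
    simp
  have h3 : (inner ℝ ((s - t) x) x : ℝ) ≤ ‖s - t‖ := by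
    refine (real_inner_le_norm _ _).trans ?_
    have := (s - t).le_opNorm x
    rw [hx, mul_one] at this ⊢
    exact this
  linarith

theorem continuous_lam (hm : 0 < m) :
    Continuous (lam : (EuclideanSpace ℝ (Fin m) →L[ℝ] EuclideanSpace ℝ (Fin m)) → ℝ) := by
  have : LipschitzWith 1
      (lam : (EuclideanSpace ℝ (Fin m) →L[ℝ] EuclideanSpace ℝ (Fin m)) → ℝ) := by
    apply LipschitzWith.of_dist_le_mul
    intro s t
    rw [Real.dist_eq, NNReal.coe_one, one_mul, dist_eq_norm, abs_le]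
    have h1 := lam_lip hm s t
    have h2 := lam_lip hm t s
    rw [norm_sub_rev] at h2
    constructor <;> linarith
  exact this.continuous

theorem lam_smul (hm : 0 < m) {r : ℝ} (hr : 0 ≤ r)
    (s : EuclideanSpace ℝ (Fin m) →L[ℝ] EuclideanSpace ℝ (Fin m)) :
    lam (r • s) = r * lam s := by
  apply le_antisymm
  · obtain ⟨x, hx, h⟩ := exists_lam hm s
    have := lam_le (r • s) hx
    rw [_root_.smul_apply, inner_smul_left, h] at this
    simpa using this
  · obtain ⟨x, hx, h⟩ := exists_lam hm (r • s)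
    have := lam_le s hx
    rw [← h, _root_.smul_apply, inner_smul_left]
    simpa using mul_le_mul_of_nonneg_left this hr

/-- the operator shifted by its smallest eigenvalue -/
noncomputable def sh (s : EuclideanSpace ℝ (Fin m) →L[ℝ] EuclideanSpace ℝ (Fin m)) :
    EuclideanSpace ℝ (Fin m) →L[ℝ] EuclideanSpace ℝ (Fin m) :=
  s - lam s • ContinuousLinearMap.id ℝ _

theorem continuous_sh (hm : 0 < m) : Continuous (sh (m := m)) := by
  unfold sh
  exact continuous_id.sub ((continuous_lam hm).smul continuous_const)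

theorem sh_smul (hm : 0 < m) {r : ℝ} (hr : 0 ≤ r)
    (s : EuclideanSpace ℝ (Fin m) →L[ℝ] EuclideanSpace ℝ (Fin m)) :
    sh (r • s) = r • sh s := by
  unfold sh
  rw [lam_smul hm hr, smul_sub, smul_smul]

theorem sh_apply (s : EuclideanSpace ℝ (Fin m) →L[ℝ] EuclideanSpace ℝ (Fin m))
    (x : EuclideanSpace ℝ (Fin m)) : sh s x = s x - lam s • x := by
  simp [sh]

theorem sh_of_zero {s : EuclideanSpace ℝ (Fin m) →L[ℝ] EuclideanSpace ℝ (Fin m)}
    (hs : lam s = 0) : sh s = s := by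
  apply ContinuousLinearMap.ext
  intro x
  rw [sh_apply, hs, zero_smul, sub_zero]

theorem sh_nonneg (s : EuclideanSpace ℝ (Fin m) →L[ℝ] EuclideanSpace ℝ (Fin m))
    (x : EuclideanSpace ℝ (Fin m)) : 0 ≤ (inner ℝ (sh s x) x : ℝ) := by
  rw [sh_apply, inner_sub_left, inner_smul_left, real_inner_self_eq_norm_sq]
  have := lam_le_mul s x
  simp only [conj_trivial]
  linarith

theorem sh_symm {s : EuclideanSpace ℝ (Fin m) →L[ℝ] EuclideanSpace ℝ (Fin m)}
    (hs : s.IsPositive) (x y : EuclideanSpace ℝ (Fin m)) :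
    (inner ℝ (sh s x) y : ℝ) = inner ℝ x (sh s y) := by
  rw [sh_apply, sh_apply, inner_sub_left, inner_sub_right, inner_smul_left, inner_smul_right]
  have : (inner ℝ (s x) y : ℝ) = inner ℝ x (s y) := hs.isSymmetric x y
  rw [this]
  simp

/-- a symmetric nonnegative operator kills the zeros of its quadratic form -/
theorem eq_zero_of_form {T : EuclideanSpace ℝ (Fin m) →L[ℝ] EuclideanSpace ℝ (Fin m)}
    (hsym : ∀ x y, (inner ℝ (T x) y : ℝ) = inner ℝ x (T y))
    (hpos : ∀ x, 0 ≤ (inner ℝ (T x) x : ℝ)) {x : EuclideanSpace ℝ (Fin m)}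
    (hx : (inner ℝ (T x) x : ℝ) = 0) : T x = 0 := by
  set c : ℝ := inner ℝ (T (T x)) (T x) with hc
  have hc0 : 0 ≤ c := hpos (T x)
  have key : ∀ r : ℝ, 0 ≤ 2 * r * ‖T x‖ ^ 2 + r ^ 2 * c := by
    intro r
    have h := hpos (x + r • T x)
    rw [map_add, map_smul, inner_add_left, inner_add_right, inner_add_right, inner_smul_left,
      inner_smul_right, inner_smul_left, inner_smul_right, hx, hsym (T x) x,
      real_inner_self_eq_norm_sq] at h
    simp only [conj_trivial] at h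
    rw [← hc] at h
    linarith
  have h1 := key (-(‖T x‖ ^ 2 / (c + 1)))
  have h2 : 0 < c + 1 := by linarith
  have h3 : 2 * -(‖T x‖ ^ 2 / (c + 1)) * ‖T x‖ ^ 2 + (-(‖T x‖ ^ 2 / (c + 1))) ^ 2 * c =
      -((‖T x‖ ^ 2) ^ 2 * (c + 2)) / (c + 1) ^ 2 := by
    field_simp
    ring
  rw [h3] at h1
  have h4 : 0 ≤ -((‖T x‖ ^ 2) ^ 2 * (c + 2)) := by
    by_contra hneg
    rw [not_le] at hneg
    have := div_neg_of_neg_of_pos hneg (by positivity : 0 < (c + 1) ^ 2)
    linarith
  have h5 : (‖T x‖ ^ 2) ^ 2 = 0 := by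
    have : 0 ≤ (‖T x‖ ^ 2) ^ 2 := by positivity
    nlinarith
  have h6 : ‖T x‖ = 0 := by
    rcases eq_or_ne ‖T x‖ 0 with h | h
    · exact h
    · exfalso
      have : 0 < (‖T x‖ ^ 2) ^ 2 := by positivity
      linarith
  exact norm_eq_zero.1 h6

theorem exists_ker_sh (hm : 0 < m)
    {s : EuclideanSpace ℝ (Fin m) →L[ℝ] EuclideanSpace ℝ (Fin m)} (hs : s.IsPositive) :
    ∃ x : EuclideanSpace ℝ (Fin m), x ≠ 0 ∧ sh s x = 0 := by
  obtain ⟨x, hx, h⟩ := exists_lam hm s
  refine ⟨x, ?_, ?_⟩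
  · rintro rfl
    simp at hx
  · apply eq_zero_of_form (sh_symm hs) (sh_nonneg s)
    rw [sh_apply, inner_sub_left, inner_smul_left, real_inner_self_eq_norm_sq, hx, h]
    simp

theorem lam_nonneg (hm : 0 < m)
    {s : EuclideanSpace ℝ (Fin m) →L[ℝ] EuclideanSpace ℝ (Fin m)} (hs : s.IsPositive) :
    0 ≤ lam s := by
  obtain ⟨x, hx, h⟩ := exists_lam hm s
  rw [← h]
  exact hs.inner_nonneg_left x

theorem surj_of_lam_pos {s : EuclideanSpace ℝ (Fin m) →L[ℝ] EuclideanSpace ℝ (Fin m)}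
    (hs : 0 < lam s) : Function.Surjective s := by
  have hinj : Function.Injective (s : EuclideanSpace ℝ (Fin m) →ₗ[ℝ] EuclideanSpace ℝ (Fin m)) := by
    rw [← LinearMap.ker_eq_bot, LinearMap.ker_eq_bot']
    intro x hx
    have h := lam_le_mul s x
    have hx' : s x = 0 := hx
    rw [hx', inner_zero_left] at h
    by_contra hne
    have : 0 < ‖x‖ ^ 2 := by positivity
    have := mul_pos hs this
    linarith
  exact LinearMap.injective_iff_surjective.1 hinj

end lam

variable {h : Fin 10 → E4 → ℝ}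

/-- Lemma E of helper38, as a hypothesis. -/
def LemE (h : Fin 10 → E4 → ℝ) : Prop :=
  ∀ (m : ℕ) (j : EuclideanSpace ℝ (Fin m) →ₗᵢ[ℝ] E4)
    (Φ : (EuclideanSpace ℝ (Fin m) →L[ℝ] EuclideanSpace ℝ (Fin m)) → Fin 10 → ℝ),
    Continuous Φ → (∀ (r : ℝ) s, 0 ≤ r → Φ (r • s) = r • Φ s) →
    (∀ s, s.IsPositive → s ≠ 0 → ∃ i, 0 < Φ s i) →
    (∀ s, s.IsPositive → ∀ i, 0 < Φ s i → ∃ x, 0 < h i (j (s x))) →
    ∃ s, s.IsPositive ∧ ∀ W : Submodule ℝ E4,
      (∀ i, 0 < Φ s i → ∀ w ∈ W, h i w = 0) → finrank ℝ W + m ≤ 4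

/-- an isometric parametrization of a subspace -/
theorem exists_isom (U : Submodule ℝ E4) {m : ℕ} (hm : finrank ℝ U = m) :
    ∃ j : EuclideanSpace ℝ (Fin m) →ₗᵢ[ℝ] E4, (∀ x, j x ∈ U) ∧ ∀ u ∈ U, ∃ x, j x = u := by
  subst hm
  let b := stdOrthonormalBasis ℝ U
  refine ⟨U.subtypeₗᵢ.comp b.repr.symm.toLinearIsometry, fun x => ?_, fun u hu => ?_⟩
  · exact (b.repr.symm x).2
  · refine ⟨b.repr ⟨u, hu⟩, ?_⟩
    simp

/-- Lemma WV: no triple lies in exactly one facet. -/
theorem wv (hh : IsData h) (hs : Surj h) (hE : LemE h) {t : Finset (Fin 10)} {o : Fin 10}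
    (ht : t.Nonempty) (ho : o ∉ t) (hR : R h (insert o t) 1) :
    ∃ e, e ∉ t ∧ e ≠ o ∧ R h (insert e t) 1 := by
  classical
  by_contra hcon
  push Not at hcon
  obtain ⟨U, hU, hU'⟩ := surj_iff hs tᶜ
  have hRt : R h tᶜᶜ 1 := by
    rw [compl_compl]
    exact R_mono (Finset.subset_insert o t) le_rfl hR
  have h3 : finrank ℝ U = 3 := finrank_eq_three hh hs hU (by rwa [compl_compl]) hRt
  obtain ⟨j, hj, hj'⟩ := exists_isom U h3
  have hm : 0 < 3 := by norm_num
  let b : OrthonormalBasis (Fin 3) ℝ (EuclideanSpace ℝ (Fin 3)) :=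
    EuclideanSpace.basisFun (Fin 3) ℝ
  let Φ : (EuclideanSpace ℝ (Fin 3) →L[ℝ] EuclideanSpace ℝ (Fin 3)) → Fin 10 → ℝ :=
    fun s i => ∑ k, h i (j (sh s (b k))) + if i = o then max (lam s) 0 else 0
  have hΦ1 : ∀ s i, i ≠ o → Φ s i = ∑ k, h i (j (sh s (b k))) := by
    intro s i hi
    simp only [Φ, if_neg hi, add_zero]
  have hsum : ∀ s i, 0 ≤ ∑ k, h i (j (sh s (b k))) := fun s i =>
    Finset.sum_nonneg fun k _ => hh.nonneg i _
  have hite : ∀ (s : EuclideanSpace ℝ (Fin 3) →L[ℝ] EuclideanSpace ℝ (Fin 3)) (i : Fin 10),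
      0 ≤ (if i = o then max (lam s) 0 else 0 : ℝ) := by
    intro s i
    split_ifs
    · exact le_max_right _ _
    · exact le_rfl
  -- every colour of the support is seen in `U`
  have hsupp : ∀ s : EuclideanSpace ℝ (Fin 3) →L[ℝ] EuclideanSpace ℝ (Fin 3), s.IsPositive →
      ∀ i, 0 < Φ s i → ∃ x, 0 < h i (j (s x)) := by
    intro s hsp i hi
    rcases (lam_nonneg hm hsp).eq_or_lt with h0 | h0
    · have hshs : sh s = s := sh_of_zero h0.symm
      have h1 : 0 < ∑ k, h i (j (s (b k))) := by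
        have h2 : (if i = o then max (lam s) 0 else 0 : ℝ) = 0 := by
          split_ifs
          · rw [← h0, max_self]
          · rfl
        have h4 : Φ s i = ∑ k, h i (j (s (b k))) := by
          simp only [Φ]
          rw [h2, add_zero, hshs]
        rwa [h4] at hi
      exact psi_exists b j h1
    · have hsur := surj_of_lam_pos h0
      by_cases hio : i = o
      · subst hio
        obtain ⟨u, hu, hpu⟩ := (hU i).1 (Finset.mem_compl.2 ho)
        obtain ⟨v, hv⟩ := hj' u hu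
        obtain ⟨x, hx⟩ := hsur v
        exact ⟨x, by rw [hx, hv]; exact hpu⟩
      · rw [hΦ1 s i hio] at hi
        obtain ⟨y, hy⟩ := psi_exists b j hi
        obtain ⟨x, hx⟩ := hsur (sh s y)
        exact ⟨x, by rw [hx]; exact hy⟩
  obtain ⟨s, hsp, hW⟩ := hE 3 j Φ
    (by
      refine continuous_pi fun i => ?_
      refine Continuous.add ?_ ?_
      · refine continuous_finsetSum _ fun k _ => (hh.cont i).comp (j.continuous.comp ?_)
        exact (ContinuousLinearMap.apply ℝ _ (b k)).continuous.comp (continuous_sh hm)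
      · split_ifs
        · exact (continuous_lam hm).max continuous_const
        · exact continuous_const)
    (by
      intro r s hr
      funext i
      simp only [Φ, Pi.smul_apply, smul_eq_mul, mul_add, Finset.mul_sum]
      congr 1
      · refine Finset.sum_congr rfl fun k _ => ?_
        rw [sh_smul hm hr, _root_.smul_apply, map_smul, hh.hom, abs_of_nonneg hr]
      · split_ifs
        · rw [lam_smul hm hr, mul_max_of_nonneg _ _ hr, mul_zero]
        · rw [mul_zero])
    (by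
      intro s hsp hne
      by_cases hz : sh s = 0
      · refine ⟨o, ?_⟩
        have h1 : 0 < lam s := by
          refine lt_of_le_of_ne (lam_nonneg hm hsp) ?_
          intro h0
          apply hne
          rw [← sh_of_zero h0.symm, hz]
        have h2 : Φ s o = ∑ k, h o (j (sh s (b k))) + lam s := by
          simp only [Φ, if_true, max_eq_left h1.le]
        rw [h2]
        have := hsum s o
        linarith
      · obtain ⟨i, hi⟩ := psi_pos b j hh hz
        refine ⟨i, ?_⟩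
        have := hite s i
        simp only [Φ]
        linarith)
    hsupp
  -- every colour different from `o` and outside `t` is in the support
  have claim1 : ∀ e, e ∉ t → e ≠ o → 0 < Φ s e := by
    intro e het heo
    by_contra hneg
    have h1 := R_compl_of_not hh hs (hcon e het heo) (by norm_num)
    obtain ⟨W, hW1, hW2⟩ := h1
    have h2 := hW W (by
      intro i hi w hw
      refine hW2 i ?_ w hw
      rw [Finset.mem_compl, Finset.mem_insert, not_or]
      constructor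
      · rintro rfl
        exact hneg hi
      · obtain ⟨x, hx⟩ := hsupp s hsp i hi
        exact Finset.mem_compl.1 ((hU i).2 ⟨_, hj _, hx⟩))
    omega
  obtain ⟨W0, hW01, hW02⟩ := hR
  -- the range of the shifted operator
  let L : EuclideanSpace ℝ (Fin 3) →ₗ[ℝ] E4 := j.toLinearMap ∘ₗ (sh s : _ →ₗ[ℝ] _)
  have hrank : finrank ℝ (LinearMap.range L) ≤ 2 := by
    have h1 := LinearMap.finrank_range_add_finrank_ker L
    have h2 : 0 < finrank ℝ (LinearMap.ker L) := by
      rw [Module.finrank_pos_iff_exists_ne_zero]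
      obtain ⟨x, hx0, hx⟩ := exists_ker_sh hm hsp
      refine ⟨⟨x, ?_⟩, ?_⟩
      · rw [LinearMap.mem_ker]
        show j (sh s x) = 0
        rw [hx, map_zero]
      · intro h0
        exact hx0 (congrArg Subtype.val h0)
    have h4 : finrank ℝ (EuclideanSpace ℝ (Fin 3)) = 3 := by simp
    omega
  have hort := finrank_add_orthogonal (LinearMap.range L)
  have hinf := Submodule.finrank_sup_add_finrank_inf_eq W0 (LinearMap.range L)ᗮ
  have hsup := finrank_le_four (W0 ⊔ (LinearMap.range L)ᗮ)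
  have hpos : 0 < finrank ℝ (W0 ⊓ (LinearMap.range L)ᗮ : Submodule ℝ E4) := by omega
  rw [Module.finrank_pos_iff_exists_ne_zero] at hpos
  obtain ⟨⟨z, hz⟩, hz0⟩ := hpos
  have hz0' : z ≠ 0 := fun h0 => hz0 (Subtype.ext h0)
  obtain ⟨i, hi⟩ := hh.pos z hz0'
  by_cases hmem : i ∈ insert o t
  · exact hi.ne' (hW02 i hmem z hz.1)
  · rw [Finset.mem_insert, not_or] at hmem
    have h1 := claim1 i hmem.2 hmem.1
    rw [hΦ1 s i hmem.1] at h1
    obtain ⟨x, hx⟩ := psi_exists b j h1
    have h2 : (inner ℝ (j (sh s x)) z : ℝ) = 0 :=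
      Submodule.inner_right_of_mem_orthogonal (K := LinearMap.range L) ⟨x, rfl⟩ hz.2
    rcases hh.orth i _ _ h2 with h3 | h3
    · exact hx.ne' h3
    · exact hi.ne' h3

end Vale.Agent.P052.R2.H923
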